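import Vale.Agent.P124.Tree

/-!
# P124: the kernel of `U` is not complemented and not a copy of `ℓ₁`

A bounded projection would give coherent lifts of the levels.  The lifts of the Rademacher vectors
have norm at least one and sums of `m` of them have norm `O(√m)`, impossible in `ℓ₁` by a gliding
hump.  An isomorphism of the kernel with `ℓ₁` would give a projection by an ultrafilter limit.
-/

namespace Vale.Agent.P124

open Filter Topology

noncomputable section

/-! ### Vectors supported on one level -/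

/-- The function supported on level `n`. -/
def embFun {n : ℕ} (v : (Fin n → Bool) → ℝ) : Node → ℝ := fun k =>
  if h : k.1 = n then v (fun i => k.2 (Fin.cast h.symm i)) else 0

theorem mass_embFun {n : ℕ} (v : (Fin n → Bool) → ℝ) (m : ℕ) :
    (mass fun i : Fin m → Bool => embFun v ⟨m, i⟩) = if m = n then mass v else 0 := by
  split_ifs with h
  · subst h
    simp [embFun, mass]
  · simp [embFun, h, mass]

theorem sum_mass_embFun {n : ℕ} (v : (Fin n → Bool) → ℝ) (K : ℕ) :
    ∑ m ∈ Finset.range K, (mass fun i : Fin m → Bool => embFun v ⟨m, i⟩) ≤ mass v := by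
  simp only [mass_embFun, Finset.sum_ite_eq']
  split
  · exact le_rfl
  · exact mass_nonneg v

/-- A level vector as an element. -/
def emb {n : ℕ} (v : (Fin n → Bool) → ℝ) : TreeL1 :=
  ⟨embFun v, memℓp_of_levels (sum_mass_embFun v)⟩

theorem level_emb_self {n : ℕ} (v : (Fin n → Bool) → ℝ) : level (emb v) n = v := by
  funext i
  simp [level, emb, embFun]

theorem level_emb_ne {n m : ℕ} (v : (Fin n → Bool) → ℝ) (h : m ≠ n) : level (emb v) m = 0 := by
  funext i
  simp [level, emb, embFun, h]

theorem norm_emb_le {n : ℕ} (v : (Fin n → Bool) → ℝ) : ‖emb v‖ ≤ mass v :=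
  norm_le_of_levels (sum_mass_embFun v)

theorem cum_emb {n : ℕ} (v : (Fin n → Bool) → ℝ) :
    (∀ m, m < n → cum (emb v) m = 0) ∧ cum (emb v) n = v := by
  have h1 : ∀ m, m < n → cum (emb v) m = 0 := by
    intro m hm
    induction m with
    | zero => rw [cum_zero, level_emb_ne v (by omega)]
    | succ m ih =>
      rw [cum_succ, ih (by omega), level_emb_ne v (by omega)]
      funext i
      simp [push]
  refine ⟨h1, ?_⟩
  cases n with
  | zero => rw [cum_zero, level_emb_self]
  | succ n =>
    rw [cum_succ, h1 n n.lt_succ_self, level_emb_self]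
    funext i
    simp [push]

theorem U_emb {n : ℕ} (v : (Fin n → Bool) → ℝ) : U (emb v) = mass v := by
  refine tendsto_nhds_unique (mass_cum_tendsto (emb v)) (tendsto_const_nhds.congr' ?_)
  filter_upwards [eventually_ge_atTop n] with m hm
  induction m, hm using Nat.le_induction with
  | base => rw [(cum_emb v).2]
  | succ m hm ih =>
    rw [cum_succ, level_emb_ne v (by omega), add_zero, mass_push, ih]

theorem sub_emb_push_mem {n : ℕ} (v : (Fin n → Bool) → ℝ) : emb v - emb (push v) ∈ kerU := by
  refine mem_kerU.2 (tendsto_nhds_unique (mass_cum_tendsto _) (tendsto_const_nhds.congr' ?_))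
  filter_upwards [eventually_ge_atTop (n + 1)] with m hm
  suffices h : cum (emb v - emb (push v)) m = 0 by simp [h, mass]
  induction m, hm using Nat.le_induction with
  | base =>
    rw [cum_sub, (cum_emb (push v)).2, cum_succ, (cum_emb v).2, level_emb_ne v (by omega),
      add_zero, sub_self]
  | succ m hm ih =>
    rw [cum_succ, ih, level_sub, level_emb_ne v (by omega), level_emb_ne (push v) (by omega),
      sub_zero, add_zero]
    funext i
    simp [push]

theorem emb_add {n : ℕ} (v w : (Fin n → Bool) → ℝ) : emb (v + w) = emb v + emb w := by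
  refine ext_level fun m => ?_
  by_cases h : m = n
  · subst h
    rw [level_add, level_emb_self, level_emb_self, level_emb_self]
  · rw [level_add, level_emb_ne _ h, level_emb_ne _ h, level_emb_ne _ h, add_zero]

/-! ### Rademacher vectors -/

/-- A sign. -/
def sgn (b : Bool) : ℝ := if b then 1 else -1

theorem sgn_not (b : Bool) : sgn (!b) = -sgn b := by cases b <;> simp [sgn]

/-- The `j`-th Rademacher vector on level `n`. -/
def rademacher (n j : ℕ) : (Fin n → Bool) → ℝ :=
  fun i => if h : j < n then sgn (i ⟨j, h⟩) / 2 ^ n else 0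

theorem push_rademacher {n j : ℕ} (h : j < n) : push (rademacher n j) = rademacher (n + 1) j := by
  funext i
  simp only [push, rademacher, dif_pos h, dif_pos (Nat.lt_succ_of_lt h), Fin.init, pow_succ]
  rw [div_div]
  rfl

theorem mass_rademacher {n j : ℕ} (h : j < n) : mass (rademacher n j) = 1 := by
  have : ∀ b, |sgn b| = 1 := fun b => by cases b <;> simp [sgn]
  simp [mass, rademacher, h, abs_div, this]

theorem sum_sgn_mul (n : ℕ) {j k : Fin n} (h : j ≠ k) :
    ∑ i : Fin n → Bool, sgn (i j) * sgn (i k) = 0 := by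
  let flip : (Fin n → Bool) ≃ (Fin n → Bool) :=
    Function.Involutive.toPerm (fun i => Function.update i j (!i j)) fun i => by simp
  have e := flip.sum_comp fun i : Fin n → Bool => sgn (i j) * sgn (i k)
  have e2 : ∀ i : Fin n → Bool, sgn (flip i j) * sgn (flip i k) = -(sgn (i j) * sgn (i k)) :=
    fun i => by
      show sgn (Function.update i j (!i j) j) * sgn (Function.update i j (!i j) k) = _
      rw [Function.update_self, Function.update_of_ne h.symm, sgn_not, neg_mul]
  rw [Finset.sum_congr rfl fun i _ => e2 i, Finset.sum_neg_distrib] at e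
  linarith

theorem mass_sum_rademacher {n : ℕ} (J : Finset ℕ) (hJ : ∀ j ∈ J, j < n) :
    mass (∑ j ∈ J, rademacher n j) ≤ √(J.card : ℝ) := by
  refine Real.le_sqrt_of_sq_le ?_
  set f := ∑ j ∈ J, rademacher n j with hf
  have hcs : mass f ^ 2 ≤ (2 : ℝ) ^ n * ∑ i, f i ^ 2 := by
    have h := sq_sum_le_card_mul_sum_sq (s := (Finset.univ : Finset (Fin n → Bool)))
      (f := fun i => |f i|)
    simpa [mass, sq_abs] using h
  have hoff : ∀ j ∈ J, ∀ k ∈ J, ∑ i, rademacher n j i * rademacher n k i =
      if j = k then ((2 : ℝ) ^ n)⁻¹ else 0 := by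
    intro j hj k hk
    have hs : ∀ b, sgn b * sgn b = 1 := fun b => by cases b <;> simp [sgn]
    simp only [rademacher, dif_pos (hJ j hj), dif_pos (hJ k hk), div_mul_div_comm,
      ← Finset.sum_div]
    split_ifs with h
    · subst h
      simp only [hs, Finset.sum_const, Finset.card_univ, Fintype.card_fun, Fintype.card_bool,
        Fintype.card_fin, nsmul_eq_mul, mul_one]
      push_cast
      field_simp
    · rw [sum_sgn_mul n (fun e => h (congrArg Fin.val e)), zero_div]
  have hsq : ∑ i, f i ^ 2 = J.card * ((2 : ℝ) ^ n)⁻¹ := by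
    simp only [hf, Finset.sum_apply, sq, Finset.sum_mul_sum]
    rw [Finset.sum_comm]
    rw [Finset.sum_congr rfl fun j hj => (Finset.sum_comm.trans
      (Finset.sum_congr rfl fun k hk => hoff j hj k hk))]
    simp
  rw [hsq] at hcs
  refine hcs.trans (le_of_eq ?_)
  field_simp

/-! ### No bounded projection -/

theorem norm_eq_tsum_abs (x : TreeL1) : ‖x‖ = ∑' k, |x k| := by
  rw [lp.norm_eq_tsum_rpow (by simp : 0 < (1 : ENNReal).toReal)]
  simp [Real.norm_eq_abs]

theorem sum_abs_le_norm (x : TreeL1) (G : Finset Node) : ∑ k ∈ G, |x k| ≤ ‖x‖ := by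
  rw [norm_eq_tsum_abs]
  exact (summable_abs x).sum_le_tsum G fun k _ => abs_nonneg _

theorem exists_finset_mass (x : TreeL1) {ε : ℝ} (hε : 0 < ε) :
    ∃ G : Finset Node, ‖x‖ - ε < ∑ k ∈ G, |x k| :=
  ((summable_abs x).hasSum.eventually_const_lt (by rw [norm_eq_tsum_abs]; linarith)).exists

theorem no_projection (P : TreeL1 →L[ℝ] TreeL1) (hP : ∀ x, P x ∈ kerU)
    (hid : ∀ x ∈ kerU, P x = x) : False := by
  classical
  set V : TreeL1 →L[ℝ] TreeL1 := ContinuousLinearMap.id ℝ TreeL1 - P with hV
  have hVk : ∀ x ∈ kerU, V x = 0 := fun x hx => by simp [hV, hid x hx]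
  have hVU : ∀ x, U x ≤ ‖V x‖ := fun x => by
    have h1 := U_add_le (P x) (V x)
    have h2 := U_le_norm (V x)
    rw [show P x + V x = x by simp [hV], mem_kerU.1 (hP x)] at h1
    linarith
  set z : ℕ → TreeL1 := fun j => V (emb (rademacher (j + 1) j)) with hz
  have hz1 : ∀ j, 1 ≤ ‖z j‖ := fun j => by
    have := hVU (emb (rademacher (j + 1) j))
    rwa [U_emb, mass_rademacher j.lt_succ_self] at this
  have hlift : ∀ j n, j < n → V (emb (rademacher n j)) = z j := by
    intro j n hn
    induction n, (Nat.succ_le_of_lt hn) using Nat.le_induction with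
    | base => rfl
    | succ n hn' ih =>
      have hjn : j < n := hn'
      rw [← ih hjn]
      have := hVk _ (sub_emb_push_mem (rademacher n j))
      rw [map_sub, sub_eq_zero, push_rademacher hjn] at this
      exact this.symm
  have hsum : ∀ J : Finset ℕ, ‖∑ j ∈ J, z j‖ ≤ ‖V‖ * √(J.card : ℝ) := by
    intro J
    obtain ⟨n, hn⟩ : ∃ n, ∀ j ∈ J, j < n :=
      ⟨J.sup id + 1, fun j hj => Nat.lt_succ_of_le (Finset.le_sup (f := id) hj)⟩
    let E : ((Fin n → Bool) → ℝ) →+ TreeL1 := AddMonoidHom.mk' emb emb_add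
    have e : ∑ j ∈ J, z j = V (E (∑ j ∈ J, rademacher n j)) := by
      rw [map_sum, map_sum]
      exact Finset.sum_congr rfl fun j hj => (hlift j n (hn j hj)).symm
    rw [e]
    refine (V.le_opNorm _).trans (mul_le_mul_of_nonneg_left ?_ (norm_nonneg V))
    exact (norm_emb_le _).trans (mass_sum_rademacher J hn)
  have hsqrt : ∀ (ε : ℝ), 0 < ε → ∃ m : ℕ, 0 < m ∧ ‖V‖ * √(m : ℝ) < ε * m := by
    intro ε hε
    obtain ⟨N, hN⟩ := exists_nat_gt ((‖V‖ / ε) ^ 2)
    have hpos : 0 < (N : ℝ) := lt_of_le_of_lt (sq_nonneg _) hN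
    refine ⟨N, by exact_mod_cast hpos, ?_⟩
    have h1 : ‖V‖ / ε < √(N : ℝ) := by
      rw [← Real.sqrt_sq (div_nonneg (norm_nonneg V) hε.le)]
      exact Real.sqrt_lt_sqrt (sq_nonneg _) hN
    rw [div_lt_iff₀ hε] at h1
    have h2 := Real.mul_self_sqrt hpos.le
    nlinarith [Real.sqrt_pos.2 hpos]
  have hcoord : ∀ (k : Node) (ε : ℝ), 0 < ε → {j | ε ≤ |z j k|}.Finite := by
    intro k ε hε
    have key : ∀ s : ℝ, |s| = 1 → {j | ε ≤ s * z j k}.Finite := by
      intro s hs
      by_contra hinf
      obtain ⟨m, hm, hlt⟩ := hsqrt ε hε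
      obtain ⟨J, hJ, hcard⟩ := Set.Infinite.exists_subset_card_eq hinf m
      have h1 : ε * m ≤ s * (∑ j ∈ J, z j) k := by
        rw [lp.coeFn_sum, Finset.sum_apply, Finset.mul_sum]
        calc ε * m = ∑ _j ∈ J, ε := by simp [hcard, mul_comm]
          _ ≤ _ := Finset.sum_le_sum fun j hj => hJ hj
      have h2 := le_abs_self (s * (∑ j ∈ J, z j) k)
      rw [abs_mul, hs, one_mul] at h2
      have h3 := lp.norm_apply_le_norm one_ne_zero (∑ j ∈ J, z j) k
      rw [Real.norm_eq_abs] at h3
      have h4 := hsum J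
      rw [hcard] at h4
      linarith
    refine ((key 1 abs_one).union (key (-1) (by simp))).subset fun j hj => ?_
    rcases abs_choice (z j k) with h | h
    · exact Or.inl (show ε ≤ 1 * z j k by rw [one_mul, ← h]; exact hj)
    · exact Or.inr (show ε ≤ -1 * z j k by rw [neg_one_mul, ← h]; exact hj)
  have hgood : ∀ (J : Finset ℕ) (G : Finset Node), ∃ j, j ∉ J ∧ ∑ k ∈ G, |z j k| < 1 / 8 := by
    intro J G
    set ε : ℝ := 1 / (8 * ((G.card : ℝ) + 1)) with hε
    have hεp : 0 < ε := by positivity
    have hfin : ((J : Set ℕ) ∪ ⋃ k ∈ (G : Set Node), {j | ε ≤ |z j k|}).Finite :=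
      J.finite_toSet.union (G.finite_toSet.biUnion fun k _ => hcoord k ε hεp)
    obtain ⟨j, hj⟩ := hfin.infinite_compl.nonempty
    simp only [Set.mem_compl_iff, Set.mem_union, Finset.mem_coe, Set.mem_iUnion, Set.mem_setOf_eq,
      not_or, not_exists, not_le] at hj
    refine ⟨j, hj.1, lt_of_le_of_lt (Finset.sum_le_sum fun k hk => (hj.2 k hk).le) ?_⟩
    rw [Finset.sum_const, nsmul_eq_mul, hε, ← mul_div_assoc, mul_one,
      div_lt_div_iff₀ (by positivity) (by norm_num)]
    linarith
  have hhump : ∀ m : ℕ, ∃ (J : Finset ℕ) (G : Finset Node), J.card = m ∧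
      (m : ℝ) / 2 + ∑ j ∈ J, (‖z j‖ - ∑ k ∈ G, |z j k|) ≤ ∑ k ∈ G, |∑ j ∈ J, z j k| := by
    intro m
    induction m with
    | zero => exact ⟨∅, ∅, rfl, by simp⟩
    | succ m ih =>
      obtain ⟨J, G, hcard, hJG⟩ := ih
      obtain ⟨j, hj, hsmall⟩ := hgood J G
      obtain ⟨F, hF⟩ := exists_finset_mass (z j) (show (0 : ℝ) < 1 / 8 by norm_num)
      refine ⟨insert j J, G ∪ (F \ G), by rw [Finset.card_insert_of_notMem hj, hcard], ?_⟩
      have hd : Disjoint G (F \ G) := Finset.disjoint_sdiff
      simp only [Finset.sum_insert hj, Finset.sum_union hd]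
      have h1 : ∑ k ∈ G, |∑ i ∈ J, z i k| - ∑ k ∈ G, |z j k| ≤
          ∑ k ∈ G, |z j k + ∑ i ∈ J, z i k| := by
        rw [← Finset.sum_sub_distrib]
        refine Finset.sum_le_sum fun k _ => ?_
        have := abs_sub_abs_le_abs_sub (∑ i ∈ J, z i k) (-(z j k))
        rw [abs_neg, sub_neg_eq_add, add_comm] at this
        exact this
      have h2 : ∑ k ∈ F \ G, |z j k| - ∑ k ∈ F \ G, ∑ i ∈ J, |z i k| ≤
          ∑ k ∈ F \ G, |z j k + ∑ i ∈ J, z i k| := by
        rw [← Finset.sum_sub_distrib]
        refine Finset.sum_le_sum fun k _ => ?_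
        have := abs_sub_abs_le_abs_sub (z j k) (-∑ i ∈ J, z i k)
        rw [abs_neg, sub_neg_eq_add] at this
        linarith [Finset.abs_sum_le_sum_abs (fun i => z i k) J]
      have h3 : ‖z j‖ - 1 / 8 - ∑ k ∈ G, |z j k| ≤ ∑ k ∈ F \ G, |z j k| := by
        have h4 : ∑ k ∈ F, |z j k| ≤ ∑ k ∈ G ∪ (F \ G), |z j k| :=
          Finset.sum_le_sum_of_subset_of_nonneg (by intro k; simp; tauto)
            fun k _ _ => abs_nonneg _
        rw [Finset.sum_union hd] at h4
        linarith
      rw [Finset.sum_comm] at h2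
      simp only [← sub_sub, Finset.sum_sub_distrib] at hJG ⊢
      push_cast
      linarith [hz1 j]
  obtain ⟨m, hm, hlt⟩ := hsqrt (1 / 2) (by norm_num)
  obtain ⟨J, G, hcard, hJG⟩ := hhump m
  have h1 : 0 ≤ ∑ j ∈ J, (‖z j‖ - ∑ k ∈ G, |z j k|) :=
    Finset.sum_nonneg fun j _ => sub_nonneg.2 (sum_abs_le_norm (z j) G)
  have h2 := sum_abs_le_norm (∑ j ∈ J, z j) G
  simp only [lp.coeFn_sum, Finset.sum_apply] at h2
  have h3 := hsum J
  rw [hcard] at h3
  linarith

/-! ### No isomorphism with `ℓ₁` -/

/-- The truncation into the kernel. -/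
def truncFun (x : TreeL1) (n : ℕ) : Node → ℝ := fun k =>
  if k.1 < n then x k else if k.1 = n then x k - cum x k.1 k.2 else 0

theorem sum_mass_truncFun (x : TreeL1) (n K : ℕ) :
    ∑ m ∈ Finset.range K, (mass fun i : Fin m → Bool => truncFun x n ⟨m, i⟩) ≤ 2 * ‖x‖ := by
  refine (Finset.sum_le_sum fun m _ => ?_ :
    _ ≤ ∑ m ∈ Finset.range K, (mass (level x m) + if m = n then mass (cum x n) else 0)).trans ?_
  · have h0 := mass_nonneg (level x m)
    rcases lt_trichotomy m n with h | rfl | h
    · simp only [truncFun, h, if_true, h.ne, if_false, add_zero]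
      exact le_rfl
    · simp only [truncFun, lt_irrefl, if_false, if_true]
      refine (Finset.sum_le_sum fun i _ => abs_sub _ _).trans ?_
      rw [Finset.sum_add_distrib]
      exact le_rfl
    · simp only [truncFun, h.ne', not_lt.2 h.le, if_false, add_zero]
      simpa [mass] using h0
  · rw [Finset.sum_add_distrib, Finset.sum_ite_eq']
    have h1 := sum_mass_le x K
    have h2 := est_antitone x (Nat.zero_le n)
    rw [est_zero, est] at h2
    have := tail_nonneg x (n + 1)
    split <;> linarith [norm_nonneg x]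

/-- The truncation into the kernel, as an element. -/
def trunc (x : TreeL1) (n : ℕ) : TreeL1 :=
  ⟨truncFun x n, memℓp_of_levels (sum_mass_truncFun x n)⟩

theorem norm_trunc_le (x : TreeL1) (n : ℕ) : ‖trunc x n‖ ≤ 2 * ‖x‖ :=
  norm_le_of_levels (sum_mass_truncFun x n)

theorem level_trunc (x : TreeL1) (n m : ℕ) :
    level (trunc x n) m =
      if m < n then level x m else if m = n then level x m - cum x m else 0 := by
  funext i
  split_ifs with h h' <;> simp [level, trunc, truncFun, *]

theorem trunc_mem (x : TreeL1) (n : ℕ) : trunc x n ∈ kerU := by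
  have hlt : ∀ m, m < n → cum (trunc x n) m = cum x m := by
    intro m hm
    induction m with
    | zero => rw [cum_zero, cum_zero, level_trunc, if_pos hm]
    | succ m ih => rw [cum_succ, cum_succ, ih (by omega), level_trunc, if_pos hm]
  have heq : cum (trunc x n) n = 0 := by
    cases n with
    | zero => simp [cum_zero, level_trunc]
    | succ n =>
      rw [cum_succ, hlt n n.lt_succ_self, level_trunc, if_neg (lt_irrefl _), if_pos rfl, cum_succ]
      abel
  refine mem_kerU.2 (tendsto_nhds_unique (mass_cum_tendsto _) (tendsto_const_nhds.congr' ?_))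
  filter_upwards [eventually_ge_atTop n] with m hm
  suffices h : cum (trunc x n) m = 0 by simp [h, mass]
  induction m, hm using Nat.le_induction with
  | base => exact heq
  | succ m hm ih =>
    rw [cum_succ, ih, level_trunc, if_neg (by omega), if_neg (by omega)]
    funext i
    simp [push]

theorem trunc_add (x y : TreeL1) (n : ℕ) : trunc (x + y) n = trunc x n + trunc y n := by
  refine ext_level fun m => ?_
  simp only [level_add, level_trunc, cum_add]
  split_ifs <;> abel

theorem trunc_smul (c : ℝ) (x : TreeL1) (n : ℕ) : trunc (c • x) n = c • trunc x n := by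
  refine ext_level fun m => ?_
  simp only [level_smul, level_trunc, cum_smul]
  split_ifs <;> module

theorem trunc_tendsto {x : TreeL1} (hx : U x = 0) : Tendsto (trunc x) atTop (𝓝 x) := by
  rw [tendsto_iff_norm_sub_tendsto_zero]
  refine squeeze_zero (fun n => norm_nonneg _) (fun n => ?_) (hx ▸ est_tendsto x)
  refine norm_le_of_levels fun K => ?_
  have hm : ∀ m, mass (level (trunc x n - x) m) ≤
      (if m = n then mass (cum x n) else 0) + if n < m then mass (level x m) else 0 := by
    intro m
    rw [level_sub, level_trunc]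
    rcases lt_trichotomy m n with h | rfl | h
    · simp [h, h.ne, h.le, not_lt.2 h.le, mass]
    · simp [mass]
    · simp [h, h.ne', not_lt.2 h.le, mass]
  refine (Finset.sum_le_sum fun m _ => hm m).trans ?_
  rw [Finset.sum_add_distrib, Finset.sum_ite_eq', est]
  refine add_le_add (by split <;> simp [mass_nonneg]) ?_
  refine (sum_relevant' x n K).trans le_rfl
where
  sum_relevant' (x : TreeL1) (n K : ℕ) :
      ∑ m ∈ Finset.range K, (if n < m then mass (level x m) else 0) ≤ tail x (n + 1) := by
    rw [← Finset.sum_filter]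
    have hsub : (Finset.range K).filter (fun m => n < m) ⊆
        (Finset.range (K + (n + 1))) \ Finset.range (n + 1) := by
      intro m
      simp
      omega
    refine (Finset.sum_le_sum_of_subset_of_nonneg hsub fun m _ _ => mass_nonneg _).trans ?_
    rw [Finset.sum_sdiff_eq_sub (Finset.range_subset_range.2 (by omega))]
    have h1 := sum_add_tail x (n + 1)
    have h2 := sum_mass_le x (K + (n + 1))
    linarith

theorem no_iso (T : kerU ≃L[ℝ] lp (fun _ : ℕ => ℝ) 1) : False := by
  classical
  set 𝓤 : Ultrafilter ℕ := Filter.hyperfilter ℕ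
  have hU : (𝓤 : Filter ℕ) ≤ atTop := by
    rw [← Nat.cofinite_eq_atTop]; exact hyperfilter_le_cofinite
  let f : TreeL1 → ℕ → lp (fun _ : ℕ => ℝ) 1 := fun x n => T ⟨trunc x n, trunc_mem x n⟩
  set C := ‖(T : kerU →L[ℝ] lp (fun _ : ℕ => ℝ) 1)‖ * 2 with hC
  have hf : ∀ x n, ‖f x n‖ ≤ C * ‖x‖ := fun x n => by
    refine ((T : kerU →L[ℝ] lp (fun _ : ℕ => ℝ) 1).le_opNorm ⟨trunc x n, trunc_mem x n⟩).trans ?_
    rw [hC, mul_assoc]
    exact mul_le_mul_of_nonneg_left (norm_trunc_le x n) (ContinuousLinearMap.opNorm_nonneg _)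
  have hlim : ∀ x k, ∃ a : ℝ, Tendsto (fun n => f x n k) 𝓤 (𝓝 a) := fun x k => by
    have hb : ∀ᶠ n : ℕ in (𝓤 : Filter ℕ), f x n k ∈ Set.Icc (-(C * ‖x‖)) (C * ‖x‖) :=
      Filter.Eventually.of_forall fun n => abs_le.1 ((Real.norm_eq_abs (f x n k)) ▸
        (lp.norm_apply_le_norm one_ne_zero (f x n) k).trans (hf x n))
    obtain ⟨a, _, ha⟩ := (isCompact_Icc (a := -(C * ‖x‖)) (b := C * ‖x‖)).ultrafilter_le_nhds
      (𝓤.map fun n : ℕ => f x n k) (by
        rw [Ultrafilter.coe_map, le_principal_iff, Filter.mem_map]; exact hb)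
    exact ⟨a, ha⟩
  choose g hg using hlim
  have hgs : ∀ x (G : Finset ℕ), ∑ k ∈ G, ‖g x k‖ ^ (1 : ENNReal).toReal ≤ C * ‖x‖ := fun x G => by
    simp only [ENNReal.toReal_one, Real.rpow_one]
    refine le_of_tendsto (tendsto_finsetSum G fun k _ => (hg x k).norm)
      (Filter.Eventually.of_forall fun n => ?_)
    refine le_trans ?_ (hf x n)
    have := lp.sum_rpow_le_norm_rpow (by simp : 0 < (1 : ENNReal).toReal) (f x n) G
    simpa using this
  let Φ : TreeL1 →ₗ[ℝ] lp (fun _ : ℕ => ℝ) 1 :=
    { toFun := fun x => ⟨g x, memℓp_gen' (hgs x)⟩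
      map_add' := fun x y => lp.ext <| funext fun k => tendsto_nhds_unique (hg (x + y) k) <| by
        refine ((hg x k).add (hg y k)).congr fun n => ?_
        have : f (x + y) n = f x n + f y n := by
          simp only [f, ← map_add]
          exact congrArg T (Subtype.ext (trunc_add x y n))
        rw [this]
        rfl
      map_smul' := fun c x => lp.ext <| funext fun k => tendsto_nhds_unique (hg (c • x) k) <| by
        refine ((hg x k).const_mul c).congr fun n => ?_
        have : f (c • x) n = c • f x n := by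
          simp only [f, ← map_smul]
          exact congrArg T (Subtype.ext (trunc_smul c x n))
        rw [this]
        rfl }
  have hΦn : ∀ x, ‖Φ x‖ ≤ C * ‖x‖ := fun x => by
    refine lp.norm_le_of_forall_sum_le (by simp : 0 < (1 : ENNReal).toReal)
      (mul_nonneg (by positivity) (norm_nonneg x)) fun G => ?_
    simpa [Φ] using hgs x G
  have hΦk : ∀ (x : TreeL1) (hx : x ∈ kerU), Φ x = T ⟨x, hx⟩ := fun x hx => by
    refine lp.ext (funext fun k => tendsto_nhds_unique (hg x k) ?_)
    have h1 : Tendsto (fun n => (⟨trunc x n, trunc_mem x n⟩ : kerU)) atTop (𝓝 ⟨x, hx⟩) :=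
      tendsto_subtype_rng.2 (trunc_tendsto hx)
    have h2 := ((T.continuous.tendsto _).comp h1).mono_left hU
    have h3 : Continuous fun v : lp (fun _ : ℕ => ℝ) 1 => v k :=
      (lp.evalCLM ℝ (fun _ : ℕ => ℝ) 1 k).continuous
    exact (h3.tendsto _).comp h2
  let P : TreeL1 →L[ℝ] TreeL1 :=
    (kerU.subtypeL.comp (T.symm : lp (fun _ : ℕ => ℝ) 1 →L[ℝ] kerU)).comp (Φ.mkContinuous C hΦn)
  refine no_projection P (fun x => (T.symm (Φ x)).2) fun x hx => ?_
  show ((T.symm (Φ x) : kerU) : TreeL1) = x
  rw [hΦk x hx, T.symm_apply_apply]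

end

end Vale.Agent.P124
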