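import Vale.Agent.P124.Tree

/-!
# P124: a Lipschitz retraction onto the kernel of `U`

With `u = U x` the levels where the tail lies between `u` and `2 u` get weights `wt x n` summing to
one, the total variation of which changes by `O(‖x - y‖ / u)`.  The retraction subtracts the
weighted average of the representatives `cum x n` plus the tail beyond level `n`.
-/

namespace Vale.Agent.P124

open Filter Topology

noncomputable section

/-- The positive part. -/
def pospart (t : ℝ) : ℝ := max t 0

theorem abs_pospart_sub_le (a b : ℝ) : |pospart a - pospart b| ≤ |a - b| :=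
  abs_max_sub_max_le_abs a b 0

theorem pospart_nonneg (t : ℝ) : 0 ≤ pospart t := le_max_right t 0

theorem pospart_of_nonneg {t : ℝ} (h : 0 ≤ t) : pospart t = t := max_eq_left h

theorem pospart_of_nonpos {t : ℝ} (h : t ≤ 0) : pospart t = 0 := max_eq_right h

theorem pospart_mono : Monotone pospart := fun _ _ h => max_le_max h le_rfl

/-- The potential absorbing the sign changes along an antitone sequence. -/
def potential (δ a : ℝ) : ℝ := (if 0 ≤ a then δ else 0) + min (pospart a) δ

theorem potential_mem {δ : ℝ} (hδ : 0 ≤ δ) (a : ℝ) :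
    0 ≤ potential δ a ∧ potential δ a ≤ 2 * δ := by
  have h1 : 0 ≤ min (pospart a) δ := le_min (pospart_nonneg a) hδ
  have h2 : min (pospart a) δ ≤ δ := min_le_right _ _
  unfold potential
  split <;> constructor <;> linarith

theorem potential_mono {δ : ℝ} (hδ : 0 ≤ δ) : Monotone (potential δ) := fun a b h => by
  have := min_le_min_right δ (pospart_mono h)
  unfold potential
  split <;> split <;> linarith

/-- One step of the variation of `pospart a - pospart b` along antitone sequences. -/
theorem variation_step {δ a a' b b' : ℝ} (hδ : |a - b| ≤ δ) (hδ' : |a' - b'| ≤ δ)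
    (ha : a' ≤ a) (hb : b' ≤ b) :
    |(pospart a - pospart b) - (pospart a' - pospart b')| ≤
      |(a - b) - (a' - b')| + (potential δ a - potential δ a') + (potential δ b - potential δ b') := by
  obtain ⟨h1, h2⟩ := abs_le.1 hδ
  obtain ⟨h3, h4⟩ := abs_le.1 hδ'
  have hd : 0 ≤ δ := (abs_nonneg _).trans hδ
  have h5 := le_abs_self ((a - b) - (a' - b'))
  have h6 := neg_abs_le ((a - b) - (a' - b'))
  unfold potential pospart
  rw [abs_le]
  rcases le_or_gt 0 a with sa | sa <;> rcases le_or_gt 0 a' with sa' | sa' <;>
    rcases le_or_gt 0 b with sb | sb <;> rcases le_or_gt 0 b' with sb' | sb' <;>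
    first
    | linarith
    | (rcases le_total a δ with ta | ta <;> rcases le_total a' δ with ta' | ta' <;>
        rcases le_total b δ with tb | tb <;> rcases le_total b' δ with tb' | tb' <;>
        constructor <;>
        simp only [sa, sa', sb, sb', ta, ta', tb, tb', hd, not_le.2, max_eq_left, max_eq_right,
          le_of_lt, if_true, if_false, min_eq_left, min_eq_right] <;> linarith)

/-- The variation of `pospart a - pospart b` along antitone sequences. -/
theorem variation_le {a b : ℕ → ℝ} (ha : Antitone a) (hb : Antitone b) {δ : ℝ}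
    (h : ∀ n, |a n - b n| ≤ δ) (K : ℕ) :
    ∑ n ∈ Finset.range K,
        |(pospart (a n) - pospart (b n)) - (pospart (a (n + 1)) - pospart (b (n + 1)))| ≤
      (∑ n ∈ Finset.range K, |(a n - b n) - (a (n + 1) - b (n + 1))|) + 4 * δ := by
  have hd : 0 ≤ δ := (abs_nonneg _).trans (h 0)
  have key : ∑ n ∈ Finset.range K,
      |(pospart (a n) - pospart (b n)) - (pospart (a (n + 1)) - pospart (b (n + 1)))| ≤
      ∑ n ∈ Finset.range K, (|(a n - b n) - (a (n + 1) - b (n + 1))| +
        ((potential δ (a n) + potential δ (b n)) -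
          (potential δ (a (n + 1)) + potential δ (b (n + 1))))) :=
    Finset.sum_le_sum fun n _ => by
      have := variation_step (h n) (h (n + 1)) (ha n.le_succ) (hb n.le_succ)
      linarith
  rw [Finset.sum_add_distrib,
    Finset.sum_range_sub' (fun n => potential δ (a n) + potential δ (b n))] at key
  linarith [potential_mem hd (a 0), potential_mem hd (b 0), potential_mem hd (a K),
    potential_mem hd (b K)]

/-- The ramp, `0` up to `u` and `u` from `2 u` on. -/
def ramp (t u : ℝ) : ℝ := pospart (t - u) - pospart (t - 2 * u)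

theorem ramp_high {t u : ℝ} (hu : 0 ≤ u) (h : 2 * u ≤ t) : ramp t u = u := by
  rw [ramp, pospart_of_nonneg (by linarith), pospart_of_nonneg (by linarith)]; ring

theorem ramp_low {t u : ℝ} (hu : 0 ≤ u) (h : t ≤ u) : ramp t u = 0 := by
  rw [ramp, pospart_of_nonpos (by linarith), pospart_of_nonpos (by linarith), sub_zero]

theorem ramp_mem {t u : ℝ} (hu : 0 ≤ u) : 0 ≤ ramp t u ∧ ramp t u ≤ u := by
  have h1 := pospart_mono (show t - 2 * u ≤ t - u by linarith)
  have h2 : pospart (t - u) ≤ pospart (t - 2 * u) + u :=
    max_le (by linarith [le_max_left (t - 2 * u) 0, show pospart (t - 2 * u) = max (t - 2 * u) 0 from rfl])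
      (by linarith [pospart_nonneg (t - 2 * u)])
  unfold ramp
  constructor <;> linarith

theorem ramp_mono {u : ℝ} (hu : 0 ≤ u) : Monotone fun t => ramp t u := fun s t h => by
  rcases le_total s (2 * u) with hs | hs
  · simp only [ramp, pospart_of_nonpos (show s - 2 * u ≤ 0 by linarith)]
    rcases le_total t (2 * u) with ht | ht
    · rw [pospart_of_nonpos (show t - 2 * u ≤ 0 by linarith)]
      linarith [pospart_mono (show s - u ≤ t - u by linarith)]
    · have h1 := ramp_high hu ht
      rw [ramp] at h1
      rw [h1, sub_zero]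
      exact max_le (by linarith) hu
  · simp only [ramp_high hu hs, ramp_high hu (hs.trans h), le_refl]

/-- The tail, with a first term above twice the seminorm. -/
def ptail (x : TreeL1) : ℕ → ℝ
  | 0 => ‖x‖ + 2 * U x
  | n + 1 => tail x (n + 1)

theorem ptail_antitone (x : TreeL1) : Antitone (ptail x) := by
  refine antitone_nat_of_succ_le fun n => ?_
  cases n with
  | zero =>
    show tail x 1 ≤ ‖x‖ + 2 * U x
    linarith [tail_le_norm x 1, U_nonneg x]
  | succ n => exact tail_antitone x (Nat.le_succ _)

/-- The fraction kept at a level. -/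
def keep (x : TreeL1) (n : ℕ) : ℝ := if U x = 0 then 1 else ramp (ptail x n) (U x) / U x

/-- The weight of a level. -/
def wt (x : TreeL1) (n : ℕ) : ℝ := keep x n - keep x (n + 1)

theorem keep_mem (x : TreeL1) (n : ℕ) : 0 ≤ keep x n ∧ keep x n ≤ 1 := by
  unfold keep
  split
  · norm_num
  · obtain ⟨h1, h2⟩ := ramp_mem (t := ptail x n) (U_nonneg x)
    exact ⟨div_nonneg h1 (U_nonneg x), div_le_one_of_le₀ h2 (U_nonneg x)⟩

theorem keep_zero (x : TreeL1) : keep x 0 = 1 := by
  unfold keep
  split_ifs with h
  · rfl
  · rw [ramp_high (U_nonneg x) (by show _ ≤ ‖x‖ + 2 * U x; linarith [norm_nonneg x]), div_self h]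

theorem wt_nonneg (x : TreeL1) (n : ℕ) : 0 ≤ wt x n := by
  rw [wt, sub_nonneg, keep, keep]
  split_ifs
  · exact le_rfl
  · exact div_le_div_of_nonneg_right
      (ramp_mono (U_nonneg x) (ptail_antitone x n.le_succ)) (U_nonneg x)

theorem sum_wt (x : TreeL1) (K : ℕ) : ∑ n ∈ Finset.range K, wt x n = 1 - keep x K := by
  simp only [wt]
  rw [Finset.sum_range_sub' (keep x), keep_zero]

theorem tail_lt_of_keep_ne {x : TreeL1} {n : ℕ} (h : keep x n ≠ 1) : tail x n < 2 * U x := by
  have hu : U x ≠ 0 := fun h0 => h (if_pos h0)
  by_contra hlt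
  rw [not_lt] at hlt
  refine h ?_
  cases n with
  | zero => exact keep_zero x
  | succ n => rw [keep, if_neg hu, ramp_high (U_nonneg x) (by exact hlt), div_self hu]

theorem tail_lt_of_wt_ne {x : TreeL1} {n : ℕ} (h : wt x n ≠ 0) : tail x (n + 1) < 2 * U x := by
  refine tail_lt_of_keep_ne fun h1 => h ?_
  have h2 := wt_nonneg x n
  have h3 := (keep_mem x n).2
  rw [wt, h1] at h2 ⊢
  linarith

/-- Levels with a small tail carry little mass. -/
theorem sum_relevant (x : TreeL1) (B : ℝ) (hB : 0 ≤ B) (c : ℕ → ℝ)
    (hc : ∀ n, 0 ≤ c n ∧ c n ≤ 1) (h : ∀ n, c n ≠ 0 → tail x n ≤ B) (K : ℕ) :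
    ∑ n ∈ Finset.range K, c n * mass (level x n) ≤ B := by
  suffices key : ∀ K j, ∑ n ∈ Finset.range K, c (n + j) * mass (level x (n + j)) ≤
      min (tail x j) B by
    simpa using (key K 0).trans (min_le_right _ _)
  intro K
  induction K with
  | zero => intro j; simpa using le_min (tail_nonneg x j) hB
  | succ K ih =>
    intro j
    rw [Finset.sum_range_succ']
    have h1 := ih (j + 1)
    rw [Finset.sum_congr rfl fun n (_ : n ∈ Finset.range K) =>
      show c (n + 1 + j) * mass (level x (n + 1 + j)) =
          c (n + (j + 1)) * mass (level x (n + (j + 1))) by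
        rw [show n + 1 + j = n + (j + 1) by omega],
      show c (0 + j) * mass (level x (0 + j)) = c j * mass (level x j) by rw [Nat.zero_add]]
    by_cases hj : c j = 0
    · rw [hj, zero_mul, add_zero]
      exact h1.trans (min_le_min_right B (tail_antitone x j.le_succ))
    · have h2 := h j hj
      rw [min_eq_left h2, tail_succ x j]
      have := mul_le_of_le_one_left (mass_nonneg (level x j)) (hc j).2
      linarith [min_le_left (tail x (j + 1)) B]

/-- The retraction, node by node. -/
def retFun (x : TreeL1) : Node → ℝ := fun k => keep x k.1 * x k - wt x k.1 * cum x k.1 k.2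

/-- The levels of the removed part. -/
theorem removed_mass_le (x : TreeL1) (n : ℕ) :
    (mass fun i : Fin n → Bool => x ⟨n, i⟩ - retFun x ⟨n, i⟩) ≤
      (1 - keep x n) * mass (level x n) + wt x n * mass (cum x n) := by
  have e : (fun i : Fin n → Bool => x ⟨n, i⟩ - retFun x ⟨n, i⟩) =
      (1 - keep x n) • level x n + wt x n • cum x n := by
    funext i
    simp [retFun, level]
    ring
  rw [e]
  refine (mass_add_le _ _).trans ?_
  rw [mass_smul, mass_smul, abs_of_nonneg (wt_nonneg x n),
    abs_of_nonneg (sub_nonneg.2 (keep_mem x n).2)]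

theorem sum_removed_le (x : TreeL1) (K : ℕ) :
    ∑ n ∈ Finset.range K, (mass fun i : Fin n → Bool => x ⟨n, i⟩ - retFun x ⟨n, i⟩) ≤
      5 * U x := by
  have hu := U_nonneg x
  refine (Finset.sum_le_sum fun n _ => removed_mass_le x n).trans ?_
  rw [Finset.sum_add_distrib]
  have h1 := sum_relevant x (2 * U x) (by linarith) (fun n => 1 - keep x n)
    (fun n => ⟨sub_nonneg.2 (keep_mem x n).2, by linarith [(keep_mem x n).1]⟩)
    (fun n hn => (tail_lt_of_keep_ne fun h => hn (by simp [h])).le) K
  have h2 : ∑ n ∈ Finset.range K, wt x n * mass (cum x n) ≤ 3 * U x := by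
    refine (Finset.sum_le_sum fun n _ => ?_ :
      _ ≤ ∑ n ∈ Finset.range K, wt x n * (3 * U x)).trans ?_
    · by_cases hw : wt x n = 0
      · simp [hw]
      · exact mul_le_mul_of_nonneg_left (by linarith [mass_cum_le x n, tail_lt_of_wt_ne hw])
          (wt_nonneg x n)
    · rw [← Finset.sum_mul, sum_wt]
      exact mul_le_of_le_one_left (by linarith) (by linarith [(keep_mem x K).1])
  linarith

theorem memℓp_retFun (x : TreeL1) : Memℓp (retFun x) 1 := by
  refine memℓp_of_levels (B := ‖x‖ + 5 * U x) fun K => ?_
  have h : ∀ n, (mass fun i : Fin n → Bool => retFun x ⟨n, i⟩) ≤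
      mass (level x n) + mass fun i : Fin n → Bool => x ⟨n, i⟩ - retFun x ⟨n, i⟩ := fun n => by
    rw [mass, mass, mass, ← Finset.sum_add_distrib]
    refine Finset.sum_le_sum fun i _ => ?_
    have h1 := abs_sub_abs_le_abs_sub (retFun x ⟨n, i⟩) (x ⟨n, i⟩)
    rw [abs_sub_comm (retFun x ⟨n, i⟩)] at h1
    simp only [level]
    linarith
  refine (Finset.sum_le_sum fun n _ => h n).trans ?_
  rw [Finset.sum_add_distrib]
  linarith [sum_mass_le x K, sum_removed_le x K]

/-- The retraction. -/
def ret (x : TreeL1) : TreeL1 := ⟨retFun x, memℓp_retFun x⟩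

theorem level_ret (x : TreeL1) (n : ℕ) :
    level (ret x) n = keep x n • level x n - wt x n • cum x n := rfl

theorem norm_sub_ret_le (x : TreeL1) : ‖x - ret x‖ ≤ 5 * U x :=
  norm_le_of_levels fun K => sum_removed_le x K

theorem ret_eq_self {x : TreeL1} (h : U x = 0) : ret x = x := by
  refine ext_level fun n => ?_
  rw [level_ret]
  simp [wt, keep, h]

theorem cum_ret (x : TreeL1) : ∀ n, cum (ret x) n = keep x (n + 1) • cum x n
  | 0 => by
    rw [cum_zero, cum_zero, level_ret, cum_zero, wt, keep_zero]
    module
  | n + 1 => by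
    rw [cum_succ, cum_ret x n, level_ret, push_smul, wt, cum_succ]
    module

theorem U_ret (x : TreeL1) : U (ret x) = 0 := by
  by_cases h : U x = 0
  · rw [ret_eq_self h, h]
  · refine tendsto_nhds_unique (mass_cum_tendsto (ret x)) (tendsto_const_nhds.congr' ?_)
    filter_upwards [(tail_tendsto x).comp (tendsto_add_atTop_nat 1) |>.eventually_lt_const
      ((U_nonneg x).lt_of_ne' h)] with n hn
    have hz : keep x (n + 1) = 0 := by
      rw [keep, if_neg h, ramp_low (t := ptail x (n + 1)) (U_nonneg x) (le_of_lt hn), zero_div]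
    simp [cum_ret, hz, mass]

theorem ret_mem (x : TreeL1) : ret x ∈ kerU := U_ret x

/-- The total variation of the change of the weights. -/
theorem sum_abs_wt_sub_le {x y : TreeL1} (hx : 0 < U x) (hy : 0 < U y) (K : ℕ) :
    ∑ n ∈ Finset.range K, |wt x n - wt y n| ≤ 47 * ‖x - y‖ / U x := by
  set δ := ‖x - y‖ with hδ
  have hU := abs_U_sub_le x y
  rw [← hδ] at hU
  set e := fun n => ptail x n - ptail y n with he
  have hE : ∀ n, |e n| ≤ 3 * δ := fun n => by
    cases n with
    | zero =>
      show |(‖x‖ + 2 * U x) - (‖y‖ + 2 * U y)| ≤ _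
      have h1 := abs_norm_sub_norm_le x y
      rw [abs_le] at h1 hU ⊢
      constructor <;> linarith
    | succ n =>
      have h1 := abs_tail_sub_le x y (n + 1)
      show |tail x (n + 1) - tail y (n + 1)| ≤ _
      linarith [norm_nonneg (x - y)]
  have hinc : ∀ K, ∑ n ∈ Finset.range K, |e n - e (n + 1)| ≤ 3 * δ := by
    intro K
    refine (Finset.sum_le_sum fun n _ => ?_ :
      _ ≤ ∑ n ∈ Finset.range K, (mass (level (x - y) n) + if n = 0 then 2 * δ else 0)).trans ?_
    · have key : ∀ m, |mass (level x m) - mass (level y m)| ≤ mass (level (x - y) m) := fun m => by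
        rw [level_sub, abs_le]
        constructor
        · have := mass_le_sub (level y m) (level x m)
          rw [show level y m - level x m = (-1 : ℝ) • (level x m - level y m) by module,
            mass_smul] at this
          simp at this
          linarith
        · linarith [mass_le_sub (level x m) (level y m)]
      cases n with
      | zero =>
        have h1 := key 0
        simp only [if_true]
        show |(‖x‖ + 2 * U x - (‖y‖ + 2 * U y)) - (tail x 1 - tail y 1)| ≤ _
        rw [← tail_zero x, ← tail_zero y, tail_succ x 0, tail_succ y 0]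
        rw [abs_le] at h1 hU ⊢
        constructor <;> linarith
      | succ n =>
        have h1 := key (n + 1)
        simp only [Nat.succ_ne_zero, if_false, add_zero]
        show |(tail x (n + 1) - tail y (n + 1)) - (tail x (n + 1 + 1) - tail y (n + 1 + 1))| ≤ _
        rw [tail_succ x (n + 1), tail_succ y (n + 1)]
        rw [abs_le] at h1 ⊢
        constructor <;> linarith
    · rw [Finset.sum_add_distrib, Finset.sum_ite_eq' (Finset.range K) 0 fun _ => 2 * δ]
      have := sum_mass_le (x - y) K
      split <;> linarith [norm_nonneg (x - y)]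
  have hshift : ∀ c : ℝ, 0 ≤ c → c ≤ 2 → ∀ K, ∑ n ∈ Finset.range K,
      |(pospart (ptail x n - c * U x) - pospart (ptail y n - c * U y)) -
        (pospart (ptail x (n + 1) - c * U x) - pospart (ptail y (n + 1) - c * U y))| ≤
        23 * δ := by
    intro c hc hc' K
    refine (variation_le (δ := 5 * δ) (fun m n h => sub_le_sub_right (ptail_antitone x h) _)
      (fun m n h => sub_le_sub_right (ptail_antitone y h) _) (fun n => ?_) K).trans ?_
    · have h1 := hE n
      simp only [he] at h1
      rw [abs_le] at h1 hU ⊢
      constructor <;> nlinarith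
    · have e1 : ∀ n, ((ptail x n - c * U x) - (ptail y n - c * U y)) -
          ((ptail x (n + 1) - c * U x) - (ptail y (n + 1) - c * U y)) = e n - e (n + 1) :=
        fun n => by simp only [he]; ring
      simp only [e1]
      linarith [hinc K]
  let D := fun n => ramp (ptail x n) (U x) - ramp (ptail y n) (U y)
  have hD : ∑ n ∈ Finset.range K, |D n - D (n + 1)| ≤ 46 * δ := by
    refine (Finset.sum_le_sum fun n _ => ?_).trans
      (le_of_le_of_eq (le_of_eq_of_le Finset.sum_add_distrib
        (add_le_add (hshift 1 zero_le_one one_le_two K) (hshift 2 zero_le_two le_rfl K)))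
        (by ring))
    simp only [D, ramp, one_mul]
    exact le_trans (le_of_eq (congrArg _ (by ring))) (abs_sub _ _)
  have hy' : ∀ n, 0 ≤ ramp (ptail y n) (U y) - ramp (ptail y (n + 1)) (U y) := fun n =>
    sub_nonneg.2 (ramp_mono hy.le (ptail_antitone y n.le_succ))
  have hw : ∀ n, |wt x n - wt y n| ≤ |D n - D (n + 1)| / U x +
      (ramp (ptail y n) (U y) - ramp (ptail y (n + 1)) (U y)) * |(U x)⁻¹ - (U y)⁻¹| := fun n => by
    rw [wt, wt, keep, keep, keep, keep, if_neg hx.ne', if_neg hx.ne', if_neg hy.ne', if_neg hy.ne',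
      ← abs_of_nonneg (hy' n), ← abs_mul]
    refine le_trans (le_of_eq ?_) (le_trans (abs_add_le _ _)
      (add_le_add (le_of_eq (show |(D n - D (n + 1)) / U x| = |D n - D (n + 1)| / U x by
        rw [abs_div, abs_of_pos hx])) le_rfl))
    congr 1
    simp only [D]
    ring
  refine (Finset.sum_le_sum fun n _ => hw n).trans ?_
  rw [Finset.sum_add_distrib, ← Finset.sum_div, ← Finset.sum_mul,
    Finset.sum_range_sub' (fun n => ramp (ptail y n) (U y))]
  have h1 : ramp (ptail y 0) (U y) - ramp (ptail y K) (U y) ≤ U y := by
    linarith [(ramp_mem (t := ptail y 0) hy.le).2, (ramp_mem (t := ptail y K) hy.le).1]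
  have h2 : |(U x)⁻¹ - (U y)⁻¹| = |U y - U x| / (U x * U y) := by
    rw [inv_sub_inv hx.ne' hy.ne', abs_div, abs_of_pos (mul_pos hx hy)]
  have h3 : (ramp (ptail y 0) (U y) - ramp (ptail y K) (U y)) * |(U x)⁻¹ - (U y)⁻¹| ≤ δ / U x := by
    refine (mul_le_mul_of_nonneg_right h1 (abs_nonneg _)).trans ?_
    rw [h2, ← mul_div_assoc, mul_comm (U x) (U y), mul_div_mul_left _ _ hy.ne', abs_sub_comm]
    exact div_le_div_of_nonneg_right hU hx.le
  have h4 := div_le_div_of_nonneg_right hD hx.le
  rw [show 47 * δ / U x = 46 * δ / U x + δ / U x by ring]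
  linarith

theorem ret_lipschitz_aux {x y : TreeL1} (h : U y ≤ U x) :
    ‖ret x - ret y‖ ≤ 400 * ‖x - y‖ := by
  set δ := ‖x - y‖ with hδ
  have hd : 0 ≤ δ := norm_nonneg _
  by_cases hclose : 10 * δ < U x
  · have hU := abs_U_sub_le x y
    rw [← hδ, abs_le] at hU
    have hx : 0 < U x := by linarith
    have hy : 0 < U y := by linarith
    have htv := sum_abs_wt_sub_le hx hy
    refine norm_le_of_levels fun K => ?_
    have hk : ∀ n, |keep x n - keep y n| ≤ 47 * δ / U x := fun n => by
      refine le_trans ?_ (htv n)
      refine le_trans (le_of_eq ?_) (Finset.abs_sum_le_sum_abs _ _)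
      rw [Finset.sum_sub_distrib, sum_wt, sum_wt, ← abs_neg]
      congr 1
      ring
    have hB : 0 ≤ 47 * δ / U x := by positivity
    -- the four error terms
    have hbound : ∀ n, mass (level (ret x - ret y) n) ≤ mass (level (x - y) n) +
        (if keep x n = keep y n then 0 else 1) * mass (level y n) * (47 * δ / U x) +
        wt x n * δ + |wt x n - wt y n| * (5 * U x) := by
      intro n
      have e : level (ret x - ret y) n = keep x n • level (x - y) n +
          (keep x n - keep y n) • level y n +
          ((-wt x n) • cum (x - y) n + (wt y n - wt x n) • cum y n) := by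
        rw [level_sub, level_ret, level_ret, level_sub, cum_sub]
        module
      rw [e]
      refine (mass_add_le _ _).trans ((add_le_add (mass_add_le _ _) (mass_add_le _ _)).trans ?_)
      simp only [mass_smul, abs_neg, abs_of_nonneg (wt_nonneg x n),
        abs_of_nonneg (keep_mem x n).1]
      rw [← add_assoc]
      refine add_le_add (add_le_add (add_le_add ?_ ?_) ?_) ?_
      · exact mul_le_of_le_one_left (mass_nonneg _) (keep_mem x n).2
      · split_ifs with hkk
        · simp [hkk]
        · rw [one_mul, mul_comm _ (47 * δ / U x)]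
          exact mul_le_mul_of_nonneg_right (hk n) (mass_nonneg _)
      · refine mul_le_mul_of_nonneg_left ?_ (wt_nonneg x n)
        have hcum : ∀ (z : TreeL1) m, mass (cum z m) ≤ ∑ j ∈ Finset.range (m + 1), mass (level z j) := by
          intro z m
          induction m with
          | zero => simp [cum_zero]
          | succ m ih =>
            rw [cum_succ, Finset.sum_range_succ]
            exact (mass_add_le _ _).trans (by rw [mass_push]; linarith)
        exact (hcum _ n).trans (sum_mass_le _ _)
      · rw [abs_sub_comm]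
        by_cases hw : wt x n = 0 ∧ wt y n = 0
        · simp [hw.1, hw.2]
        · refine mul_le_mul_of_nonneg_left ?_ (abs_nonneg _)
          have h1 := mass_cum_le y n
          have h2 : tail y (n + 1) ≤ 3 * U x := by
            rcases not_and_or.1 hw with hw | hw
            · have := tail_lt_of_wt_ne hw
              have h4 := abs_tail_sub_le x y (n + 1)
              rw [← hδ, abs_le] at h4
              linarith
            · linarith [tail_lt_of_wt_ne hw]
          linarith
    refine (Finset.sum_le_sum fun n _ => hbound n).trans ?_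
    simp only [Finset.sum_add_distrib, ← Finset.sum_mul]
    have h1 := sum_mass_le (x - y) K
    have h2 : ∑ n ∈ Finset.range K, (if keep x n = keep y n then 0 else 1) * mass (level y n) ≤
        3 * U x := by
      refine sum_relevant y (3 * U x) (by linarith) (fun n => if keep x n = keep y n then 0 else 1)
        (fun n => by split <;> norm_num) (fun n hn => ?_) K
      have hne : keep x n ≠ keep y n := fun he => hn (if_pos he)
      by_cases h1 : keep y n = 1
      · have := tail_lt_of_keep_ne (fun he : keep x n = 1 => hne (he.trans h1.symm))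
        have h4 := abs_tail_sub_le x y n
        rw [← hδ, abs_le] at h4
        linarith
      · linarith [tail_lt_of_keep_ne h1]
    have h3 : (∑ n ∈ Finset.range K, wt x n) * δ ≤ δ :=
      mul_le_of_le_one_left hd (by rw [sum_wt]; linarith [(keep_mem x K).1])
    have h4 := mul_le_mul_of_nonneg_right (htv K) (show 0 ≤ 5 * U x by linarith)
    have h5 := mul_le_mul_of_nonneg_right h2 hB
    have e4 : 47 * δ / U x * (5 * U x) = 235 * δ := by field_simp; ring
    have e5 : 3 * U x * (47 * δ / U x) = 141 * δ := by field_simp; ring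
    linarith
  · have h1 := norm_sub_ret_le x
    have h2 := norm_sub_ret_le y
    have e : ret x - ret y = (x - y) - (x - ret x) + (y - ret y) := by abel
    rw [e]
    refine (norm_add_le _ _).trans ((add_le_add (norm_sub_le _ _) le_rfl).trans ?_)
    rw [← hδ]
    linarith

theorem ret_lipschitz : LipschitzWith 400 ret := by
  refine LipschitzWith.of_dist_le_mul fun x y => ?_
  rw [dist_eq_norm, dist_eq_norm]
  rcases le_total (U y) (U x) with h | h
  · simpa using ret_lipschitz_aux h
  · simpa [norm_sub_rev] using ret_lipschitz_aux h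

end

end Vale.Agent.P124
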