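import Mathlib

/-!
# P124: the dyadic tree version of `ℓ₁` and its seminorm `U`

Level `n` of the tree has `2 ^ n` nodes.  `cum x n` is the mass of the levels up to `n`, moved down
to level `n` along the tree (every node splits evenly).  The seminorm `U x` is the limit of its norm.
-/

namespace Vale.Agent.P124

open Filter Topology

noncomputable section

/-- Nodes of the dyadic tree. -/
abbrev Node : Type := Σ n : ℕ, (Fin n → Bool)

/-- `ℓ₁` of the tree. -/
abbrev TreeL1 : Type := lp (fun _ : Node => ℝ) 1

/-- The norm on one level. -/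
def mass {n : ℕ} (v : (Fin n → Bool) → ℝ) : ℝ := ∑ i, |v i|

/-- A level of an element. -/
def level (x : TreeL1) (n : ℕ) : (Fin n → Bool) → ℝ := fun i => x ⟨n, i⟩

/-- Moving one level down. -/
def push {n : ℕ} (v : (Fin n → Bool) → ℝ) : (Fin (n + 1) → Bool) → ℝ :=
  fun i => v (Fin.init i) / 2

theorem mass_nonneg {n : ℕ} (v : (Fin n → Bool) → ℝ) : 0 ≤ mass v :=
  Finset.sum_nonneg fun i _ => abs_nonneg _

theorem mass_add_le {n : ℕ} (v w : (Fin n → Bool) → ℝ) : mass (v + w) ≤ mass v + mass w := by
  rw [mass, mass, mass, ← Finset.sum_add_distrib]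
  exact Finset.sum_le_sum fun i _ => abs_add_le _ _

theorem mass_smul {n : ℕ} (c : ℝ) (v : (Fin n → Bool) → ℝ) : mass (c • v) = |c| * mass v := by
  simp [mass, Finset.mul_sum, abs_mul]

theorem mass_le_sub {n : ℕ} (v w : (Fin n → Bool) → ℝ) : mass v ≤ mass w + mass (v - w) := by
  simpa using mass_add_le w (v - w)

theorem mass_push {n : ℕ} (v : (Fin n → Bool) → ℝ) : mass (push v) = mass v := by
  rw [mass, ← Fintype.sum_equiv (Fin.snocEquiv fun _ => Bool)
    (fun p : Bool × (Fin n → Bool) => |v p.2 / 2|) (fun i => |push v i|) (fun p => by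
      simp [push, Fin.snocEquiv]), Fintype.sum_prod_type]
  simp only [Fintype.sum_bool, mass, abs_div, abs_two, ← Finset.sum_div]
  ring

theorem push_add {n : ℕ} (v w : (Fin n → Bool) → ℝ) : push (v + w) = push v + push w := by
  funext i
  simp [push, add_div]

theorem push_smul {n : ℕ} (c : ℝ) (v : (Fin n → Bool) → ℝ) : push (c • v) = c • push v := by
  funext i
  simp [push, mul_div_assoc]

theorem level_add (x y : TreeL1) (n : ℕ) : level (x + y) n = level x n + level y n := rfl

theorem level_sub (x y : TreeL1) (n : ℕ) : level (x - y) n = level x n - level y n := rfl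

theorem level_smul (c : ℝ) (x : TreeL1) (n : ℕ) : level (c • x) n = c • level x n := rfl

theorem ext_level {x y : TreeL1} (h : ∀ n, level x n = level y n) : x = y :=
  lp.ext (funext fun ⟨n, i⟩ => congrFun (h n) i)

theorem summable_abs (x : TreeL1) : Summable fun k : Node => |x k| := by
  simpa [Real.norm_eq_abs] using (lp.memℓp x).summable (by simp : 0 < (1 : ENNReal).toReal)

theorem summable_mass (x : TreeL1) : Summable fun n => mass (level x n) := by
  simpa [mass, level] using ((summable_sigma_of_nonneg fun k => abs_nonneg (x k)).1 (summable_abs x)).2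

theorem norm_eq_tsum_mass (x : TreeL1) : ‖x‖ = ∑' n, mass (level x n) := by
  rw [lp.norm_eq_tsum_rpow (by simp : 0 < (1 : ENNReal).toReal)]
  simp only [ENNReal.toReal_one, Real.rpow_one, one_div, inv_one, Real.norm_eq_abs]
  rw [(summable_abs x).tsum_sigma]
  simp [mass, level]

theorem norm_le_of_levels {x : TreeL1} {B : ℝ}
    (h : ∀ K, ∑ n ∈ Finset.range K, mass (level x n) ≤ B) : ‖x‖ ≤ B := by
  rw [norm_eq_tsum_mass]
  exact Real.tsum_le_of_sum_range_le (fun n => mass_nonneg _) h

theorem memℓp_of_levels {f : Node → ℝ} {B : ℝ}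
    (h : ∀ K, ∑ n ∈ Finset.range K, (mass fun i : Fin n → Bool => f ⟨n, i⟩) ≤ B) :
    Memℓp f 1 := by
  refine memℓp_gen ?_
  simp only [ENNReal.toReal_one, Real.rpow_one, Real.norm_eq_abs]
  refine (summable_sigma_of_nonneg fun k => abs_nonneg _).2 ⟨fun n => Summable.of_finite, ?_⟩
  refine summable_of_sum_range_le (c := B) (fun n => tsum_nonneg fun i => abs_nonneg _) fun K => ?_
  simpa [mass] using h K

theorem sum_mass_le (x : TreeL1) (K : ℕ) : ∑ n ∈ Finset.range K, mass (level x n) ≤ ‖x‖ := by
  rw [norm_eq_tsum_mass]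
  exact (summable_mass x).sum_le_tsum _ fun n _ => mass_nonneg _

/-- The norm of the levels from `n` on. -/
def tail (x : TreeL1) (n : ℕ) : ℝ := ∑' m, mass (level x (m + n))

theorem tail_nonneg (x : TreeL1) (n : ℕ) : 0 ≤ tail x n := tsum_nonneg fun m => mass_nonneg _

theorem tail_zero (x : TreeL1) : tail x 0 = ‖x‖ := by rw [norm_eq_tsum_mass, tail]; rfl

theorem sum_add_tail (x : TreeL1) (n : ℕ) :
    (∑ m ∈ Finset.range n, mass (level x m)) + tail x n = ‖x‖ := by
  rw [norm_eq_tsum_mass, tail, Summable.sum_add_tsum_nat_add n (summable_mass x)]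

theorem tail_succ (x : TreeL1) (n : ℕ) : tail x n = mass (level x n) + tail x (n + 1) := by
  have h1 := sum_add_tail x n
  have h2 := sum_add_tail x (n + 1)
  rw [Finset.sum_range_succ] at h2
  linarith

theorem tail_le_norm (x : TreeL1) (n : ℕ) : tail x n ≤ ‖x‖ := by
  have h := sum_add_tail x n
  have := Finset.sum_nonneg fun m (_ : m ∈ Finset.range n) => mass_nonneg (level x m)
  linarith

theorem tail_antitone (x : TreeL1) : Antitone (tail x) :=
  antitone_nat_of_succ_le fun n => by linarith [tail_succ x n, mass_nonneg (level x n)]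

theorem tail_tendsto (x : TreeL1) : Tendsto (tail x) atTop (𝓝 0) :=
  tendsto_sum_nat_add fun m => mass (level x m)

theorem tail_le_add (x y : TreeL1) (n : ℕ) : tail x n ≤ tail y n + tail (x - y) n := by
  have hs : ∀ z : TreeL1, Summable fun m => mass (level z (m + n)) := fun z =>
    (summable_nat_add_iff (f := fun m => mass (level z m)) n).2 (summable_mass z)
  rw [tail, tail, tail, ← (hs y).tsum_add (hs (x - y))]
  refine (hs x).tsum_le_tsum (fun m => ?_) ((hs y).add (hs (x - y)))
  rw [level_sub]
  exact mass_le_sub _ _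

theorem abs_tail_sub_le (x y : TreeL1) (n : ℕ) : |tail x n - tail y n| ≤ ‖x - y‖ := by
  rw [abs_le]
  have h1 := tail_le_add x y n
  have h2 := tail_le_add y x n
  have h3 := tail_le_norm (x - y) n
  have h4 := tail_le_norm (y - x) n
  rw [norm_sub_rev] at h4
  constructor <;> linarith

/-- The levels up to `n`, moved to level `n`. -/
def cum (x : TreeL1) : ∀ n : ℕ, (Fin n → Bool) → ℝ
  | 0 => level x 0
  | n + 1 => push (cum x n) + level x (n + 1)

theorem cum_zero (x : TreeL1) : cum x 0 = level x 0 := rfl

theorem cum_succ (x : TreeL1) (n : ℕ) : cum x (n + 1) = push (cum x n) + level x (n + 1) := rfl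

theorem cum_add (x y : TreeL1) : ∀ n, cum (x + y) n = cum x n + cum y n
  | 0 => rfl
  | n + 1 => by
    rw [cum_succ, cum_succ, cum_succ, cum_add x y n, push_add, level_add]
    abel

theorem cum_smul (c : ℝ) (x : TreeL1) : ∀ n, cum (c • x) n = c • cum x n
  | 0 => rfl
  | n + 1 => by rw [cum_succ, cum_succ, cum_smul c x n, push_smul, level_smul, smul_add]

theorem cum_sub (x y : TreeL1) (n : ℕ) : cum (x - y) n = cum x n - cum y n := by
  have h := cum_add (x - y) y n
  rw [sub_add_cancel] at h
  rw [h, add_sub_cancel_right]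

/-- The norm of the moved mass plus the tail. -/
def est (x : TreeL1) (n : ℕ) : ℝ := mass (cum x n) + tail x (n + 1)

theorem est_zero (x : TreeL1) : est x 0 = ‖x‖ := by
  rw [est, cum_zero, ← tail_succ x 0, tail_zero]

theorem est_antitone (x : TreeL1) : Antitone (est x) := by
  refine antitone_nat_of_succ_le fun n => ?_
  have h := mass_add_le (push (cum x n)) (level x (n + 1))
  rw [mass_push, ← cum_succ] at h
  have := tail_succ x (n + 1)
  unfold est
  linarith

theorem est_nonneg (x : TreeL1) (n : ℕ) : 0 ≤ est x n :=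
  add_nonneg (mass_nonneg _) (tail_nonneg _ _)

/-- The limit norm of the moved mass. -/
def U (x : TreeL1) : ℝ := ⨅ n, est x n

theorem bddBelow_est (x : TreeL1) : BddBelow (Set.range (est x)) :=
  ⟨0, by rintro _ ⟨n, rfl⟩; exact est_nonneg x n⟩

theorem est_tendsto (x : TreeL1) : Tendsto (est x) atTop (𝓝 (U x)) :=
  tendsto_atTop_ciInf (est_antitone x) (bddBelow_est x)

theorem mass_cum_tendsto (x : TreeL1) : Tendsto (fun n => mass (cum x n)) atTop (𝓝 (U x)) := by
  have h := (est_tendsto x).sub ((tail_tendsto x).comp (tendsto_add_atTop_nat 1))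
  simpa [est] using h

theorem U_nonneg (x : TreeL1) : 0 ≤ U x := le_ciInf (est_nonneg x)

theorem U_le_est (x : TreeL1) (n : ℕ) : U x ≤ est x n := ciInf_le (bddBelow_est x) n

theorem U_le_norm (x : TreeL1) : U x ≤ ‖x‖ := est_zero x ▸ U_le_est x 0

theorem mass_cum_le (x : TreeL1) (n : ℕ) : mass (cum x n) ≤ U x + tail x (n + 1) := by
  have hanti : Antitone fun m => mass (cum x n) - tail x (n + 1) - (mass (cum x m) - tail x (m + 1)) :=
    antitone_nat_of_succ_le fun m => by
      have h1 := mass_le_sub (push (cum x m)) (cum x (m + 1))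
      have h2 : mass (push (cum x m) - cum x (m + 1)) = mass (level x (m + 1)) := by
        rw [cum_succ, sub_add_cancel_left]
        simp [mass]
      rw [mass_push] at h1
      have := tail_succ x (m + 1)
      linarith
  refine le_of_forall_pos_le_add fun ε hε => ?_
  obtain ⟨N, hN⟩ := eventually_atTop.1 ((est_tendsto x).eventually_lt_const
    (show U x < U x + ε by linarith))
  have h1 := hanti (le_max_left n N)
  have h2 := hN (max n N) (le_max_right n N)
  have h3 := tail_nonneg x (max n N + 1)
  simp only [est] at h2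
  linarith

theorem U_add_le (x y : TreeL1) : U (x + y) ≤ U x + U y :=
  le_of_tendsto_of_tendsto' (mass_cum_tendsto _) ((mass_cum_tendsto x).add (mass_cum_tendsto y))
    fun n => by rw [cum_add]; exact mass_add_le _ _

theorem U_smul (c : ℝ) (x : TreeL1) : U (c • x) = |c| * U x :=
  tendsto_nhds_unique (mass_cum_tendsto _) (((mass_cum_tendsto x).const_mul |c|).congr fun n => by
    rw [cum_smul, mass_smul])

theorem abs_U_sub_le (x y : TreeL1) : |U x - U y| ≤ ‖x - y‖ := by
  rw [abs_le]
  have h1 := U_add_le y (x - y)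
  have h2 := U_add_le x (y - x)
  have h3 := U_le_norm (x - y)
  have h4 := U_le_norm (y - x)
  rw [add_sub_cancel] at h1 h2
  rw [norm_sub_rev] at h4
  constructor <;> linarith

/-- The kernel of `U`. -/
def kerU : Submodule ℝ TreeL1 where
  carrier := {x | U x = 0}
  add_mem' {x y} hx hy := le_antisymm (by
    have := U_add_le x y
    simp only [Set.mem_setOf_eq] at hx hy
    linarith) (U_nonneg _)
  zero_mem' := le_antisymm (by simpa using U_le_norm (0 : TreeL1)) (U_nonneg _)
  smul_mem' c x hx := by
    simp only [Set.mem_setOf_eq] at hx ⊢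
    rw [U_smul, hx, mul_zero]

theorem mem_kerU {x : TreeL1} : x ∈ kerU ↔ U x = 0 := Iff.rfl

theorem continuous_U : Continuous U :=
  (LipschitzWith.of_dist_le_mul (K := 1) fun x y => by
    rw [Real.dist_eq, NNReal.coe_one, one_mul, dist_eq_norm]
    exact abs_U_sub_le x y).continuous

theorem isClosed_kerU : IsClosed (kerU : Set TreeL1) :=
  isClosed_eq continuous_U continuous_const

end

end Vale.Agent.P124
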